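import Crest.Agent.Helper40.OT.SW

/-!
# Row 82 (S0109) — WP-SW, constant-generic form of `(B)`

`discrete_potential_stability_gen`: if the inequality of `weights_stability` holds with an
arbitrary constant `c`, then `(B)` holds with the constant `4 + 4 * c` (explicit `κ`).
-/

set_option autoImplicit false

noncomputable section

open MeasureTheory Filter Topology
open scoped ENNReal NNReal RealInnerProductSpace

namespace Crest.Agent.Helper75.OT

open Crest.AnalysisR.OT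

variable {d : ℕ}

/-- `(B)` with the explicit shift `κ = -∑ j, m j * (wy (y j) - wz (z j))`, from the inequality
of `weights_stability` with an arbitrary constant `c`. -/
theorem discrete_potential_stability_gen {K : Set (E d)} (hK : Body K) {R : ℝ}
    (hR : ∀ x ∈ K, ‖x‖ ≤ R) {ι : Type} [Fintype ι] (y z : ι → E d) (m : ι → ℝ)
    (hm : ∀ i, 0 < m i) (hsum : ∑ i, m i = 1) (wy wz : E d → ℝ)
    (hwy : IsLagWeights K (supp y) (mergedMass y m) wy)
    (hwz : IsLagWeights K (supp z) (mergedMass z m) wz) (c : ℝ)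
    (hWS : ∑ i, m i * ((wy (y i) - wz (z i)) - ∑ j, m j * (wy (y j) - wz (z j))) ^ 2
      ≤ c * R ^ 2 * ∑ i, m i * ‖y i - z i‖ ^ 2) :
    ∫ x, (lagPot (supp y) wy x - lagPot (supp z) wz x
        - (-∑ j, m j * (wy (y j) - wz (z j)))) ^ 2 ∂(uniformProbOn K)
      ≤ (4 + 4 * c) * R ^ 2 * ∑ i, m i * ‖y i - z i‖ ^ 2 := by
  have h1 := sandwich hK hR y z m hm hsum wy wz hwy hwz
  simp only [sub_neg_eq_add]
  linarith

/-- Existential form of `discrete_potential_stability_gen` with any constant `C ≥ 4 + 4 * c`. -/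
theorem discrete_potential_stability_of_le {K : Set (E d)} (hK : Body K) {R : ℝ}
    (hR : ∀ x ∈ K, ‖x‖ ≤ R) {ι : Type} [Fintype ι] (y z : ι → E d) (m : ι → ℝ)
    (hm : ∀ i, 0 < m i) (hsum : ∑ i, m i = 1) (wy wz : E d → ℝ)
    (hwy : IsLagWeights K (supp y) (mergedMass y m) wy)
    (hwz : IsLagWeights K (supp z) (mergedMass z m) wz) (c C : ℝ) (hC : 4 + 4 * c ≤ C)
    (hWS : ∑ i, m i * ((wy (y i) - wz (z i)) - ∑ j, m j * (wy (y j) - wz (z j))) ^ 2
      ≤ c * R ^ 2 * ∑ i, m i * ‖y i - z i‖ ^ 2) :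
    ∃ κ : ℝ, ∫ x, (lagPot (supp y) wy x - lagPot (supp z) wz x - κ) ^ 2 ∂(uniformProbOn K)
      ≤ C * R ^ 2 * ∑ i, m i * ‖y i - z i‖ ^ 2 := by
  refine ⟨-∑ j, m j * (wy (y j) - wz (z j)), ?_⟩
  have h1 := discrete_potential_stability_gen hK hR y z m hm hsum wy wz hwy hwz c hWS
  have h2 : 0 ≤ R ^ 2 * ∑ i, m i * ‖y i - z i‖ ^ 2 :=
    mul_nonneg (sq_nonneg R) (Finset.sum_nonneg (fun i _ => mul_nonneg (hm i).le (sq_nonneg _)))
  nlinarith

end Crest.Agent.Helper75.OT
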